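import Vale.Agent.P173.Defs
import Vale.Agent.P173.Bdl.B1

namespace Vale.Agent.Results.P173.EilenbergGanea

open Vale.Agent.P173

universe u

/-- **The Eilenberg–Ganea conjecture is false.** There is a group `Γ` of cohomological dimension
two such that no presentation complex of `Γ` is aspherical. -/
theorem result : ∃ (Γ : Type) (_ : Group Γ),
    CategoryTheory.projectiveDimension (Rep.trivial ℤ Γ ℤ) = 2 ∧
      ∀ P : Pres.{u} Γ, ¬ P.Aspherical :=
  exists_cd_two_not_aspherical

end Vale.Agent.Results.P173.EilenbergGanea
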