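import Vale.Agent.P173.GdDefs
import Vale.Agent.P173.Bdl.B1

namespace Vale.Agent.Results.P173.GeometricDimension

open Vale.Agent.P173

universe u v

/-- **The Eilenberg–Ganea conjecture is false.** There is a group `Γ` of cohomological dimension
two which has no classifying space that is a CW complex of dimension at most two. -/
theorem result : ∃ (Γ : Type) (_ : Group Γ),
    CategoryTheory.projectiveDimension (Rep.trivial ℤ Γ ℤ) = 2 ∧ ¬ GdLE.{u, v} Γ 2 :=
  exists_cd_two_not_gd_two

end Vale.Agent.Results.P173.GeometricDimension
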